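import Vale.Agent.P299.H835.IX.Fock

/-!
# P301, package SC1: linear algebra of a symplectic form in the Fock encoding
-/

open scoped ComplexOrder Matrix
open Vale.Agent.P299.IX Vale.Agent.P299.IX.Fock

noncomputable section

namespace Vale.Agent.P301.H85

variable {d : ℕ}

/-- exterior multiplication by `½ Σ s_{ij} dz_i ∧ dz_j` -/
def Sop (s : Matrix (Fin d) (Fin d) ℂ) : FM d := (1 / 2 : ℂ) • ∑ i, eps i * epsV (s i)

/-- contraction with `½ Σ r_{ij} ∂_i ∧ ∂_j` -/
def Cop (r : Matrix (Fin d) (Fin d) ℂ) : FM d := (1 / 2 : ℂ) • ∑ i, iot i * iotV (r i)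

/-- the number operator -/
def Nop : FM d := dgl fun p => (p : ℂ)

theorem sum_eps_iot : ∑ i : Fin d, eps i * iot i = (Nop : FM d) := by
  refine ext_mulVec fun a => ?_
  ext I
  rw [Matrix.sum_mulVec, Finset.sum_apply, Nop, dgl_mulVec]
  simp only [eps_iot_mulVec]
  rw [Finset.sum_ite_mem, Finset.univ_inter, Finset.sum_const, nsmul_eq_mul]

variable {s r : Matrix (Fin d) (Fin d) ℂ}

theorem iot_Sop (hs : sᵀ = -s) (k : Fin d) : iot k * Sop s = Sop s * iot k + epsV (s k) := by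
  have h1 : ∀ i, iot k * (eps i * epsV (s i)) = eps i * epsV (s i) * iot k +
      ((if k = i then epsV (s i) else 0) - s i k • eps i) := by
    intro i
    have e1 : iot k * eps i = (if k = i then 1 else 0) - eps i * iot k := by
      rw [← car k i]; abel
    have e2 : iot k * epsV (s i) = s i k • 1 - epsV (s i) * iot k := by
      rw [← iot_epsV k (s i)]; abel
    rw [← Matrix.mul_assoc, e1, Matrix.sub_mul, Matrix.mul_assoc, e2, Matrix.mul_sub,
      Matrix.mul_smul, Matrix.mul_one, ← Matrix.mul_assoc]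
    split_ifs
    · rw [Matrix.one_mul]; abel
    · rw [Matrix.zero_mul]; abel
  have h2 : ∑ i, s i k • (eps i : FM d) = -epsV (s k) := by
    rw [epsV, ← Finset.sum_neg_distrib]
    refine Finset.sum_congr rfl fun i _ => ?_
    have h3 : s i k = -s k i := by
      have := congrFun (congrFun hs k) i
      simpa using this
    rw [h3, neg_smul]
  rw [Sop, Matrix.mul_smul, Finset.mul_sum, Finset.sum_congr rfl fun i _ => h1 i,
    Finset.sum_add_distrib, Finset.sum_sub_distrib, h2, Finset.sum_ite_eq, if_pos (Finset.mem_univ _),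
    Matrix.smul_mul, Finset.sum_mul, smul_add]
  congr 1
  rw [sub_neg_eq_add, ← two_smul ℂ (epsV (s k)), smul_smul]
  norm_num

theorem iotV_Sop (hs : sᵀ = -s) (v : Fin d → ℂ) :
    iotV v * Sop s = Sop s * iotV v + epsV (v ᵥ* s) := by
  have h1 : v ᵥ* s = ∑ k, v k • s k := by
    ext j
    simp [Matrix.vecMul, dotProduct, Finset.sum_apply]
  rw [h1, epsV_sum, iotV, Finset.sum_mul, Finset.mul_sum, ← Finset.sum_add_distrib]
  refine Finset.sum_congr rfl fun k _ => ?_
  rw [Matrix.smul_mul, iot_Sop hs, smul_add, Matrix.mul_smul, epsV_smul]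

/-- the `sl₂` relation -/
theorem Cop_Sop (hs : sᵀ = -s) (hr : r * s = 1) :
    Cop r * Sop s = Sop s * Cop r + ((d : ℂ) / 2) • 1 - Nop := by
  have h1 : ∀ i, iot i * iotV (r i) * Sop s =
      Sop s * (iot i * iotV (r i)) + (epsV (s i) * iotV (r i) + iot i * eps i) := by
    intro i
    have e1 : r i ᵥ* s = Pi.single i 1 := by
      ext j
      have := congrFun (congrFun hr i) j
      rw [Matrix.mul_apply] at this
      rw [Matrix.vecMul, dotProduct, this, Matrix.one_apply, Pi.single_apply]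
      simp [eq_comm]
    rw [Matrix.mul_assoc, iotV_Sop hs, e1, epsV_single, Matrix.mul_add, ← Matrix.mul_assoc,
      iot_Sop hs, Matrix.add_mul, Matrix.mul_assoc]
    abel
  have h2 : ∑ i, epsV (s i) * iotV (r i) = -(Nop : FM d) := by
    have e1 : ∀ i, epsV (s i) * iotV (r i) = ∑ j, ∑ k, (s i j * r i k) • (eps j * iot k) := by
      intro i
      rw [epsV, iotV, Finset.sum_mul]
      refine Finset.sum_congr rfl fun j _ => ?_
      rw [Finset.mul_sum]
      refine Finset.sum_congr rfl fun k _ => ?_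
      rw [Matrix.smul_mul, Matrix.mul_smul, smul_smul]
    have hsr : s * r = 1 := mul_eq_one_comm.1 hr
    have e2 : ∀ j k, ∑ i, s i j * r i k = if j = k then -1 else 0 := by
      intro j k
      have h3 : ∀ i, s i j = -s j i := by
        intro i
        have := congrFun (congrFun hs j) i
        simpa using this
      have h4 := congrFun (congrFun hsr j) k
      rw [Matrix.mul_apply, Matrix.one_apply] at h4
      simp only [h3, neg_mul, Finset.sum_neg_distrib, h4]
      split_ifs <;> simp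
    rw [Finset.sum_congr rfl fun i _ => e1 i, Finset.sum_comm, ← sum_eps_iot,
      ← Finset.sum_neg_distrib]
    refine Finset.sum_congr rfl fun j _ => ?_
    rw [Finset.sum_comm]
    simp only [← Finset.sum_smul, e2]
    simp
  have h3 : ∑ i : Fin d, iot i * eps i = (d : ℂ) • (1 : FM d) - Nop := by
    have e1 : ∀ i : Fin d, iot i * eps i = 1 - eps i * iot i := by
      intro i
      have := car i i
      rw [if_pos rfl] at this
      rw [← this]; abel
    rw [Finset.sum_congr rfl fun i _ => e1 i, Finset.sum_sub_distrib, sum_eps_iot,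
      Finset.sum_const, Finset.card_univ, Fintype.card_fin]
    congr 1
    rw [← Nat.cast_smul_eq_nsmul ℂ]
  rw [Cop, Matrix.smul_mul, Finset.sum_mul, Finset.sum_congr rfl fun i _ => h1 i,
    Finset.sum_add_distrib, Finset.sum_add_distrib, h2, h3, ← Finset.mul_sum, smul_add,
    Matrix.mul_smul, add_sub_assoc]
  congr 1
  have : -(Nop : FM d) + ((d : ℂ) • (1 : FM d) - Nop) = (2 : ℂ) • (((d : ℂ) / 2) • 1 - Nop) := by
    rw [smul_sub, smul_smul, two_smul]
    rw [show (2 : ℂ) * (d / 2) = d by ring]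
    abel
  rw [this, smul_smul]
  norm_num

theorem dgl_Sop (c : ℕ → ℂ) : dgl c * Sop s = Sop s * dgl (fun p => c (p + 2)) := by
  rw [Sop, Matrix.mul_smul, Finset.mul_sum, Matrix.smul_mul, Finset.sum_mul]
  congr 1
  refine Finset.sum_congr rfl fun i _ => ?_
  rw [← Matrix.mul_assoc, dgl_eps, Matrix.mul_assoc, dgl_epsV, Matrix.mul_assoc]

/-- `s^k / (…)`: the powers of the form -/
def sPow (s : Matrix (Fin d) (Fin d) ℂ) (k : ℕ) : FI d → ℂ := (Sop s) ^ k *ᵥ ev ∅

theorem sPow_zero : sPow s 0 = ev ∅ := by simp [sPow]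

theorem sPow_succ (k : ℕ) : sPow s (k + 1) = Sop s *ᵥ sPow s k := by
  rw [sPow, pow_succ', ← Matrix.mulVec_mulVec]
  rfl

theorem dgl_sPow (c : ℕ → ℂ) (k : ℕ) : dgl c *ᵥ sPow s k = c (2 * k) • sPow s k := by
  induction k generalizing c with
  | zero => rw [sPow_zero, dgl_ev]; simp
  | succ k ih =>
    rw [sPow_succ, Matrix.mulVec_mulVec, dgl_Sop, ← Matrix.mulVec_mulVec, ih, Matrix.mulVec_smul]
    rfl

theorem sPow_deg (k : ℕ) {I : FI d} (hI : I.card ≠ 2 * k) : sPow s k I = 0 := by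
  have h1 := congrFun (dgl_sPow (s := s) (fun q => if q = 2 * k then 1 else 0) k) I
  rw [dgl_mulVec, if_neg hI, zero_mul, if_pos rfl, one_smul] at h1
  exact h1.symm

theorem Cop_sPow (hs : sᵀ = -s) (hr : r * s = 1) (k : ℕ) :
    Cop r *ᵥ sPow s (k + 1) = ((k + 1 : ℂ) * ((d : ℂ) / 2 - k)) • sPow s k := by
  induction k with
  | zero =>
    have h0 : Cop r *ᵥ ev ∅ = 0 := by
      rw [Cop, Matrix.smul_mulVec, Matrix.sum_mulVec]
      simp only [← Matrix.mulVec_mulVec, iotV_ev_empty, Matrix.mulVec_zero, Finset.sum_const_zero,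
        smul_zero]
    rw [sPow_succ, sPow_zero, Matrix.mulVec_mulVec, Cop_Sop hs hr, Matrix.sub_mulVec,
      Matrix.add_mulVec, ← Matrix.mulVec_mulVec, h0, Matrix.mulVec_zero, zero_add,
      Matrix.smul_mulVec, Matrix.one_mulVec, Nop, dgl_ev]
    simp
  | succ k ih =>
    rw [sPow_succ (k := k + 1), Matrix.mulVec_mulVec, Cop_Sop hs hr, Matrix.sub_mulVec,
      Matrix.add_mulVec, ← Matrix.mulVec_mulVec, ih, Matrix.mulVec_smul, ← sPow_succ,
      Matrix.smul_mulVec, Matrix.one_mulVec, Nop, dgl_sPow, ← add_smul, ← sub_smul]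
    congr 1
    push_cast
    ring

theorem sPow_ne_zero {n : ℕ} (hd : d = 2 * n) (hs : sᵀ = -s) (hdet : s.det ≠ 0) {k : ℕ}
    (hk : k ≤ n) : sPow s k ≠ 0 := by
  have hr : s⁻¹ * s = 1 := Matrix.nonsing_inv_mul _ (isUnit_iff_ne_zero.2 hdet)
  induction k with
  | zero =>
    rw [sPow_zero]
    intro h
    have := congrFun h ∅
    simp [ev] at this
  | succ k ih =>
    intro h
    have h1 := Cop_sPow hs hr k
    rw [h, Matrix.mulVec_zero] at h1
    have h2 : ((k + 1 : ℂ) * ((d : ℂ) / 2 - k)) ≠ 0 := by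
      refine mul_ne_zero (by exact_mod_cast k.succ_ne_zero) ?_
      rw [hd]
      push_cast
      rw [mul_div_cancel_left₀ _ (two_ne_zero)]
      rw [sub_ne_zero]
      exact_mod_cast (by omega : n ≠ k)
    exact (smul_ne_zero h2 (ih (by omega))) h1.symm

/-- the coefficient of the top power -/
def pfc (n : ℕ) (s : Matrix (Fin d) (Fin d) ℂ) : ℂ := sPow s n Finset.univ

theorem sPow_top {n : ℕ} (hd : d = 2 * n) : sPow s n = pfc n s • ev Finset.univ := by
  ext I
  rw [Pi.smul_apply, smul_eq_mul]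
  by_cases h : I = Finset.univ
  · rw [h]; simp [ev, pfc]
  · rw [sPow_deg n, ev, Pi.single_apply, if_neg h, mul_zero]
    intro h1
    exact h ((Finset.card_eq_iff_eq_univ I).1 (by rw [h1, Fintype.card_fin, hd]))

theorem pfc_ne_zero {n : ℕ} (hd : d = 2 * n) (hs : sᵀ = -s) (hdet : s.det ≠ 0) :
    pfc n s ≠ 0 := by
  intro h
  have := sPow_top (s := s) hd
  rw [h, zero_smul] at this
  exact sPow_ne_zero hd hs hdet le_rfl this

/-! ### the action of a matrix -/

theorem lam_Sop (M : Matrix (Fin d) (Fin d) ℂ) : lam M * Sop s = Sop (M * s * Mᵀ) * lam M := by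
  have h1 : ∀ i, lam M * (eps i * epsV (s i)) =
      (∑ p, M p i • (eps p * epsV (M *ᵥ s i))) * lam M := by
    intro i
    rw [← Matrix.mul_assoc, lam_eps_col, Matrix.mul_assoc, lam_epsV, ← Matrix.mul_assoc]
    congr 1
    rw [epsV, Finset.sum_mul]
    exact Finset.sum_congr rfl fun p _ => by rw [Matrix.smul_mul]
  have h2 : ∀ p, (M * s * Mᵀ) p = ∑ i, M p i • (M *ᵥ s i) := by
    intro p
    ext q
    rw [Matrix.mul_apply, Finset.sum_apply]
    simp only [Matrix.mul_apply, Matrix.transpose_apply, Pi.smul_apply, smul_eq_mul,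
      Matrix.mulVec, dotProduct, Finset.sum_mul, Finset.mul_sum]
    rw [Finset.sum_comm]
    exact Finset.sum_congr rfl fun i _ => Finset.sum_congr rfl fun j _ => by ring
  rw [Sop, Matrix.mul_smul, Finset.mul_sum, Finset.sum_congr rfl fun i _ => h1 i,
    ← Finset.sum_mul, Sop, Matrix.smul_mul]
  congr 2
  rw [Finset.sum_comm]
  refine Finset.sum_congr rfl fun p _ => ?_
  rw [h2, epsV_sum, Finset.mul_sum]
  exact Finset.sum_congr rfl fun i _ => by rw [epsV_smul, Matrix.mul_smul]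

theorem lam_sPow (M : Matrix (Fin d) (Fin d) ℂ) (k : ℕ) :
    lam M *ᵥ sPow s k = sPow (M * s * Mᵀ) k := by
  induction k with
  | zero => rw [sPow_zero, sPow_zero, lam_ev_empty]
  | succ k ih => rw [sPow_succ, sPow_succ, Matrix.mulVec_mulVec, lam_Sop, ← Matrix.mulVec_mulVec, ih]

theorem lam_univ (M : Matrix (Fin d) (Fin d) ℂ) (u : FI d → ℂ) :
    (lam M *ᵥ u) Finset.univ = M.det * u Finset.univ := by
  rw [Matrix.mulVec, dotProduct, Finset.sum_eq_single Finset.univ, lam_top]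
  · intro K _ hK
    rw [lam_apply_of_card_ne, zero_mul]
    intro h
    exact hK ((Finset.card_eq_iff_eq_univ K).1 h.symm)
  · intro h
    exact absurd (Finset.mem_univ _) h

theorem lam_empty (M : Matrix (Fin d) (Fin d) ℂ) (u : FI d → ℂ) :
    (lam M *ᵥ u) ∅ = u ∅ := by
  rw [Matrix.mulVec, dotProduct, Finset.sum_eq_single ∅, lam_apply_empty, if_pos rfl, one_mul]
  · intro K _ hK
    rw [lam_apply_empty, if_neg hK, zero_mul]
  · intro h
    exact absurd (Finset.mem_univ _) h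

theorem pfc_change {n : ℕ} (M : Matrix (Fin d) (Fin d) ℂ) :
    pfc n (M * s * Mᵀ) = M.det * pfc n s := by
  rw [pfc, ← lam_sPow, lam_univ]
  rfl

/-- the twisted vector field of a form of degree `d - 1` -/
def vv (u : FI d → ℂ) : Fin d → ℂ := fun l => (eps l *ᵥ u) Finset.univ

theorem vv_lam {M : Matrix (Fin d) (Fin d) ℂ} (hM : IsUnit M.det) (u : FI d → ℂ) :
    vv (lam M *ᵥ u) = M.det • (vv u ᵥ* M⁻¹) := by
  ext l
  have h1 : eps l * lam M = lam M * epsV (M⁻¹ *ᵥ Pi.single l 1) := by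
    rw [lam_epsV, Matrix.mulVec_mulVec, Matrix.mul_nonsing_inv _ hM, Matrix.one_mulVec,
      epsV_single]
  rw [vv, Matrix.mulVec_mulVec, h1, ← Matrix.mulVec_mulVec, lam_univ, Pi.smul_apply, smul_eq_mul]
  congr 1
  rw [epsV, Matrix.sum_mulVec, Finset.sum_apply, Matrix.vecMul, dotProduct]
  refine Finset.sum_congr rfl fun k _ => ?_
  rw [Matrix.smul_mulVec, Pi.smul_apply, smul_eq_mul, vv]
  rw [show (M⁻¹ *ᵥ Pi.single l 1) k = M⁻¹ k l by
    rw [Matrix.mulVec_single_one]; rfl]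
  ring

/-- the `1`-form of a form of degree `d - 1` -/
def dual (n : ℕ) (s : Matrix (Fin d) (Fin d) ℂ) (u : FI d → ℂ) : Fin d → ℂ :=
  (pfc n s)⁻¹ • (vv u ᵥ* s)

theorem dual_change {n : ℕ} {M : Matrix (Fin d) (Fin d) ℂ} (hM : IsUnit M.det) (u : FI d → ℂ) :
    dual n (M * s * Mᵀ) (lam M *ᵥ u) = M *ᵥ dual n s u := by
  rw [dual, dual, pfc_change, vv_lam hM, Matrix.smul_vecMul, smul_smul, Matrix.vecMul_vecMul,
    ← Matrix.mul_assoc, ← Matrix.mul_assoc, Matrix.nonsing_inv_mul _ hM, Matrix.one_mul,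
    Matrix.mulVec_smul, ← Matrix.vecMul_transpose, Matrix.vecMul_vecMul]
  congr 1
  rw [mul_inv, mul_comm (M.det)⁻¹, mul_assoc, inv_mul_cancel₀ hM.ne_zero, mul_one]

theorem vv_eq_zero {u : FI d → ℂ} (hu : ∀ I : FI d, I.card ≠ d - 1 → u I = 0) (hd : 0 < d)
    (h : vv u = 0) : u = 0 := by
  ext I
  by_cases hI : I.card = d - 1
  · have h1 : Iᶜ.card = 1 := by
      rw [Finset.card_compl, Fintype.card_fin, hI]; omega
    obtain ⟨l, hl⟩ := Finset.card_eq_one.1 h1
    have h2 : I = (Finset.univ : Finset (Fin d)).erase l := by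
      rw [← compl_compl I, hl]
      ext a; simp
    have h3 := congrFun h l
    rw [vv, eps_mulVec, if_pos (Finset.mem_univ _), ← h2] at h3
    exact (mul_eq_zero.1 h3).resolve_left (left_ne_zero_of_mul_eq_one (sg_mul_self l _))
  · exact hu I hI

theorem dual_eq_zero {n : ℕ} (hd : d = 2 * n) (hn : 0 < n) (hs : sᵀ = -s) (hdet : s.det ≠ 0)
    {u : FI d → ℂ} (hu : ∀ I : FI d, I.card ≠ d - 1 → u I = 0) (h : dual n s u = 0) : u = 0 := by
  refine vv_eq_zero hu (by omega) ?_
  have h1 : vv u ᵥ* s = 0 := by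
    have h2 := (smul_eq_zero.1 h).resolve_left (inv_ne_zero (pfc_ne_zero hd hs hdet))
    exact h2
  have h3 := congrArg (· ᵥ* s⁻¹) h1
  simpa [Matrix.vecMul_vecMul, Matrix.mul_nonsing_inv _ (isUnit_iff_ne_zero.2 hdet)] using h3

/-! ### 1-forms and 2-forms -/

/-- the `1`-form with components `a` -/
def oneF (a : Fin d → ℂ) : FI d → ℂ := epsV a *ᵥ ev ∅

theorem oneF_apply (a : Fin d → ℂ) (I : FI d) :
    oneF a I = ∑ l, if I = {l} then a l else 0 := by
  rw [oneF, epsV, Matrix.sum_mulVec, Finset.sum_apply]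
  refine Finset.sum_congr rfl fun l _ => ?_
  have h1 : eps l *ᵥ ev ∅ = ev {l} := by
    rw [eps_ev_min (by simp)]
    rfl
  rw [Matrix.smul_mulVec, Pi.smul_apply, h1, smul_eq_mul, ev, Pi.single_apply]
  split_ifs <;> simp

theorem oneF_single (a : Fin d → ℂ) (l : Fin d) : oneF a {l} = a l := by
  rw [oneF_apply, Finset.sum_eq_single l]
  · simp
  · intro b _ hb
    rw [if_neg]
    intro h
    exact hb (Finset.singleton_injective h).symm
  · simp

theorem oneF_deg (a : Fin d → ℂ) {I : FI d} (hI : I.card ≠ 1) : oneF a I = 0 := by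
  rw [oneF_apply]
  refine Finset.sum_eq_zero fun l _ => ?_
  rw [if_neg]
  rintro rfl
  exact hI (Finset.card_singleton l)

theorem lam_oneF (M : Matrix (Fin d) (Fin d) ℂ) (a : Fin d → ℂ) :
    lam M *ᵥ oneF a = oneF (M *ᵥ a) := by
  rw [oneF, oneF, Matrix.mulVec_mulVec, lam_epsV, ← Matrix.mulVec_mulVec, lam_ev_empty]

/-- the matrix of a `2`-form -/
def twoM (u : FI d → ℂ) : Matrix (Fin d) (Fin d) ℂ :=
  Matrix.of fun i j => (iot j *ᵥ (iot i *ᵥ u)) ∅

theorem twoM_alt (u : FI d → ℂ) : (twoM u)ᵀ = -twoM u := by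
  ext i j
  simp only [twoM, Matrix.transpose_apply, Matrix.of_apply, Matrix.neg_apply]
  rw [Matrix.mulVec_mulVec, iot_iot, Matrix.neg_mulVec, Pi.neg_apply, ← Matrix.mulVec_mulVec]

theorem twoM_lam (M : Matrix (Fin d) (Fin d) ℂ) (u : FI d → ℂ) :
    twoM (lam M *ᵥ u) = M * twoM u * Mᵀ := by
  ext i j
  have h1 : iot j *ᵥ (iot i *ᵥ (lam M *ᵥ u)) =
      lam M *ᵥ (iotV (fun l => M j l) *ᵥ (iotV (fun l => M i l) *ᵥ u)) := by
    have e1 : ∀ (k : Fin d) (y : FI d → ℂ), iot k *ᵥ (lam M *ᵥ y) =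
        lam M *ᵥ (iotV (fun l => M k l) *ᵥ y) := by
      intro k y
      rw [Matrix.mulVec_mulVec, iot_lam_row, ← Matrix.mulVec_mulVec]
    rw [e1, e1]
  rw [twoM, Matrix.of_apply, h1, lam_empty, Matrix.mul_apply]
  simp only [iotV, Matrix.sum_mulVec, Matrix.smul_mulVec, Matrix.mulVec_sum, Matrix.mulVec_smul,
    Finset.sum_apply, Pi.smul_apply, smul_eq_mul, Matrix.mul_apply, twoM, Matrix.of_apply,
    Matrix.transpose_apply, Finset.sum_mul, Finset.mul_sum]
  rw [Finset.sum_comm]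
  exact Finset.sum_congr rfl fun q _ => Finset.sum_congr rfl fun p _ => by ring

theorem Sop_twoM {u : FI d → ℂ} (hu : ∀ I : FI d, I.card ≠ 2 → u I = 0) :
    Sop (twoM u) *ᵥ ev ∅ = u := by
  -- Euler
  have euler : ∀ (q : ℕ) (v : FI d → ℂ), (∀ I : FI d, I.card ≠ q → v I = 0) →
      ∑ i, eps i *ᵥ (iot i *ᵥ v) = (q : ℂ) • v := by
    intro q v hv
    have h1 : ∑ i, eps i *ᵥ (iot i *ᵥ v) = (Nop : FM d) *ᵥ v := by
      rw [← sum_eps_iot, Matrix.sum_mulVec]
      exact Finset.sum_congr rfl fun i _ => Matrix.mulVec_mulVec _ _ _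
    rw [h1]
    ext I
    rw [Nop, dgl_mulVec, Pi.smul_apply, smul_eq_mul]
    by_cases hI : I.card = q
    · rw [hI]
    · rw [hv I hI, mul_zero, mul_zero]
  have hdeg : ∀ (q : ℕ) (v : FI d → ℂ), (∀ I : FI d, I.card ≠ q + 1 → v I = 0) → ∀ i,
      ∀ I : FI d, I.card ≠ q → (iot i *ᵥ v) I = 0 := by
    intro q v hv i I hI
    rw [iot_mulVec]
    split_ifs with h
    · rfl
    · rw [hv, mul_zero]
      rw [Finset.card_insert_of_notMem h]
      omega
  have h1 : ∀ i, iot i *ᵥ u = ∑ j, twoM u i j • (eps j *ᵥ ev ∅) := by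
    intro i
    have h2 := euler 1 (iot i *ᵥ u) (hdeg 1 u hu i)
    rw [Nat.cast_one, one_smul] at h2
    rw [← h2]
    refine Finset.sum_congr rfl fun j _ => ?_
    rw [← Matrix.mulVec_smul]
    congr 1
    ext I
    rw [Pi.smul_apply, smul_eq_mul, ev, Pi.single_apply]
    by_cases hI : I = ∅
    · rw [hI, if_pos rfl, mul_one]
      rfl
    · rw [if_neg hI, mul_zero]
      exact hdeg 0 _ (hdeg 1 u hu i) j I (by rwa [Ne, Finset.card_eq_zero])
  have h3 := euler 2 u hu
  have h4 : ∑ i, eps i *ᵥ (iot i *ᵥ u) = ∑ i, (eps i * epsV (twoM u i)) *ᵥ ev ∅ := by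
    refine Finset.sum_congr rfl fun i _ => ?_
    rw [h1, ← Matrix.mulVec_mulVec, epsV, Matrix.sum_mulVec]
    simp only [Matrix.smul_mulVec]
  rw [Sop, Matrix.smul_mulVec, Matrix.sum_mulVec, ← h4, h3, smul_smul]
  norm_num

end Vale.Agent.P301.H85
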