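import Vale.Agent.P301.H85.SC.One
import Vale.Agent.P301.H85.SC.Lef
import Vale.Agent.P301.H599.Stmt

/-!
# P301, package SC1: holomorphic forms on a compact simply connected Kähler manifold with a
holomorphic symplectic form
-/

open scoped Manifold ContDiff ComplexOrder Topology Matrix
open Set Filter Metric
open Vale.Agent.P272.K Vale.Agent.P272.K.C2 Vale.Agent.P299.IX Vale.Agent.P299.IX.Fock
open Vale.Agent.P301.H599 (IsHolTwoForm IsSymplectic)

set_option linter.unusedSectionVars false

noncomputable section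

namespace Vale.Agent.P301.H85

variable {d n k : ℕ}

section an

variable {z : Cm d}

theorem an_Sop {m : ℕ} {s : Cm d → Matrix (Fin m) (Fin m) ℂ}
    (h : ∀ i j, AnalyticAt ℂ (fun y => s y i j) z) (I K : FI m) :
    AnalyticAt ℂ (fun y => Sop (s y) I K) z := by
  have h1 : (fun y => Sop (s y) I K) =
      fun y => (1 / 2 : ℂ) * ∑ i, ∑ j, s y i j * (eps i * eps j : FM m) I K := by
    funext y
    simp only [Sop, epsV, Finset.mul_sum, Matrix.mul_smul, Matrix.smul_apply, Matrix.sum_apply,
      smul_eq_mul]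
  rw [h1]
  refine analyticAt_const.mul (Finset.analyticAt_fun_sum _ fun i _ =>
    Finset.analyticAt_fun_sum _ fun j _ => (h i j).mul analyticAt_const)

theorem an_sPow {m : ℕ} {s : Cm d → Matrix (Fin m) (Fin m) ℂ}
    (h : ∀ i j, AnalyticAt ℂ (fun y => s y i j) z) (k : ℕ) (I : FI m) :
    AnalyticAt ℂ (fun y => sPow (s y) k I) z := by
  induction k generalizing I with
  | zero =>
    simp only [sPow_zero]
    exact analyticAt_const
  | succ k ih =>
    simp only [sPow_succ, Matrix.mulVec, dotProduct]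
    exact Finset.analyticAt_fun_sum _ fun K _ => (an_Sop h I K).mul (ih K)

theorem an_dual {m : ℕ} {s : Cm d → Matrix (Fin m) (Fin m) ℂ} {u : Cm d → FI m → ℂ}
    (h : ∀ i j, AnalyticAt ℂ (fun y => s y i j) z) (hu : ∀ I, AnalyticAt ℂ (fun y => u y I) z)
    (h0 : pfc n (s z) ≠ 0) (l : Fin m) : AnalyticAt ℂ (fun y => dual n (s y) (u y) l) z := by
  simp only [dual, Pi.smul_apply, smul_eq_mul, Matrix.vecMul, dotProduct, vv, Matrix.mulVec]
  refine ((an_sPow h n Finset.univ).inv h0).mul (Finset.analyticAt_fun_sum _ fun k _ =>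
    (Finset.analyticAt_fun_sum _ fun K _ => analyticAt_const.mul (hu K)).mul (h k l))

theorem an_oneF {m : ℕ} {a : Cm d → Fin m → ℂ}
    (h : ∀ i, AnalyticAt ℂ (fun y => a y i) z) (I : FI m) :
    AnalyticAt ℂ (fun y => oneF (a y) I) z := by
  simp only [oneF_apply]
  refine Finset.analyticAt_fun_sum _ fun l _ => ?_
  split_ifs
  · exact h l
  · exact analyticAt_const

theorem an_twoM {m : ℕ} {u : Cm d → FI m → ℂ} (hu : ∀ I, AnalyticAt ℂ (fun y => u y I) z)
    (i j : Fin m) : AnalyticAt ℂ (fun y => twoM (u y) i j) z := by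
  simp only [twoM, Matrix.of_apply, Matrix.mulVec, dotProduct]
  exact Finset.analyticAt_fun_sum _ fun K _ => analyticAt_const.mul
    (Finset.analyticAt_fun_sum _ fun L _ => analyticAt_const.mul (hu L))

end an

variable {X : Type} [TopologicalSpace X] [ChartedSpace (Cm d) X] {g : Frm d X}
  {s : Chart d X → Cm d → Matrix (Fin d) (Fin d) ℂ}

theorem alt_of (hs : IsHolTwoForm s) {e : Chart d X} {x : X} (hx : At e x) :
    (s e (e x))ᵀ = -s e (e x) := hs.alt e x hx

/-- the powers of `s` are holomorphic forms -/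
theorem isHolF_sPow (hs : IsHolTwoForm s) (k : ℕ) :
    IsHolF (2 * k) (fun (e : Chart d X) z => sPow (s e z) k) where
  holo e x hx I := an_sPow (hs.holo e x hx) k I
  change e e' x hx hx' := by
    rw [lam_sPow, hs.change e e' x hx hx', Matrix.transpose_transpose]
  deg e x _ I hI := sPow_deg k hI

/-- global functions, given in the charts, are constant -/
theorem exists_const [Nonempty X] [CompactSpace X] [PreconnectedSpace X]
    [IsManifold 𝓘(ℂ, Cm d) ω X]
    {f : Chart d X → Cm d → ℂ} (hf : ∀ e x, At e x → AnalyticAt ℂ (f e) (e x))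
    (hc : ∀ e e' x, At e x → At e' x → f e (e x) = f e' (e' x)) :
    ∃ a : ℂ, ∀ e x, At e x → f e (e x) = a := by
  obtain ⟨x₀⟩ := ‹Nonempty X›
  let F : X → ℂ := fun x => f (chartAt (Cm d) x) (chartAt (Cm d) x x)
  have hat : ∀ x : X, At (chartAt (Cm d) x : Chart d X) x := fun x =>
    ⟨chart_mem_atlas _ _, mem_chart_source _ _⟩
  have hF : ∀ e x, At e x → F x = f e (e x) := fun e x hx => hc _ _ x (hat x) hx
  have hd : ∀ (e : Chart d X) y, At e y → DifferentiableAt ℂ (fun z => F (e.symm z)) (e y) := by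
    intro e y hy
    refine (hf e y hy).differentiableAt.congr_of_eventuallyEq ?_
    filter_upwards [eventually_at hy] with z hz
    rw [hF e _ hz.1, hz.2]
  refine ⟨F x₀, fun e x hx => ?_⟩
  rw [← hF e x hx]
  exact const_of_charts hd x x₀

variable [CompactSpace X] [IsManifold 𝓘(ℂ, Cm d) ω X]

/-- functions -/
theorem IsHolF.zero_const [Nonempty X] [PreconnectedSpace X] (hg : IsHolF 0 g) :
    ∃ a : ℂ, ∀ e x, At e x → g e (e x) = a • ev ∅ := by
  obtain ⟨a, ha⟩ := exists_const (f := fun e z => g e z ∅) (fun e x hx => hg.holo e x hx ∅)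
    (fun e e' x hx hx' => by rw [hg.change e e' x hx hx', lam_empty])
  refine ⟨a, fun e x hx => ?_⟩
  ext I
  rw [Pi.smul_apply, smul_eq_mul, ev, Pi.single_apply]
  by_cases hI : I = ∅
  · rw [hI, if_pos rfl, mul_one, ← ha e x hx]
  · rw [if_neg hI, mul_zero, hg.deg e x hx I (by rwa [Ne, Finset.card_eq_zero])]

/-- forms of top degree -/
theorem IsHolF.top_const [Nonempty X] [PreconnectedSpace X] (hd : d = 2 * n)
    (hs : IsHolTwoForm s) (hnd : ∀ e x, At e x → (s e (e x)).det ≠ 0) (hg : IsHolF d g) :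
    ∃ a : ℂ, ∀ e x, At e x → g e (e x) = a • sPow (s e (e x)) n := by
  have h0 : ∀ e x, At e x → pfc n (s e (e x)) ≠ 0 := fun e x hx =>
    pfc_ne_zero hd (hs.alt e x hx) (hnd e x hx)
  obtain ⟨a, ha⟩ := exists_const (f := fun e z => g e z Finset.univ * (pfc n (s e z))⁻¹)
    (fun e x hx => (hg.holo e x hx _).mul ((an_sPow (hs.holo e x hx) n _).inv (h0 e x hx)))
    (fun e e' x hx hx' => by
      have hJ : (jacM e e' x)ᵀ.det ≠ 0 := by
        rw [Matrix.det_transpose]
        exact jacM_det_ne_zero hx hx'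
      have h1 : pfc n (s e (e x)) = (jacM e e' x)ᵀ.det * pfc n (s e' (e' x)) := by
        rw [← pfc_change, hs.change e e' x hx hx', Matrix.transpose_transpose]
      rw [hg.change e e' x hx hx', lam_univ, h1, mul_inv]
      have := mul_inv_cancel₀ hJ
      linear_combination (g e' (e' x) Finset.univ * (pfc n (s e' (e' x)))⁻¹) * this)
  refine ⟨a, fun e x hx => ?_⟩
  rw [sPow_top hd, smul_smul]
  ext I
  rw [Pi.smul_apply, smul_eq_mul, ev, Pi.single_apply]
  by_cases hI : I = Finset.univ
  · rw [hI, if_pos rfl, mul_one, ← ha e x hx, mul_assoc, inv_mul_cancel₀ (h0 e x hx), mul_one]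
  · rw [if_neg hI, mul_zero, hg.deg e x hx I]
    intro h1
    exact hI ((Finset.card_eq_iff_eq_univ I).1 (by rw [h1, Fintype.card_fin]))

variable [T2Space X] {w : Chart d X → Cm d → Matrix (Fin d) (Fin d) ℂ}

/-- **forms of degree `d - 1`** on a compact simply connected Kähler manifold with a holomorphic
symplectic form -/
theorem IsHolF.codim_one_zero [SimplyConnectedSpace X] (hw : IsKahler w) (hd : d = 2 * n)
    (hn : 0 < n) (hs : IsHolTwoForm s) (hnd : ∀ e x, At e x → (s e (e x)).det ≠ 0)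
    (hg : IsHolF (d - 1) g) {e : Chart d X} {x : X} (hx : At e x) : g e (e x) = 0 := by
  have h0 : ∀ e x, At e x → pfc n (s e (e x)) ≠ 0 := fun e x hx =>
    pfc_ne_zero hd (hs.alt e x hx) (hnd e x hx)
  have ha : IsHolF 1 (fun (e : Chart d X) z => oneF (dual n (s e z) (g e z))) := by
    refine ⟨fun e x hx I => an_oneF (an_dual (hs.holo e x hx) (hg.holo e x hx) (h0 e x hx)) I,
      fun e e' x hx hx' => ?_, fun e x _ I hI => oneF_deg _ hI⟩
    have hJ : IsUnit (jacM e e' x)ᵀ.det := by
      rw [Matrix.det_transpose]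
      exact isUnit_iff_ne_zero.2 (jacM_det_ne_zero hx hx')
    rw [lam_oneF, ← dual_change hJ, hs.change e e' x hx hx', hg.change e e' x hx hx',
      Matrix.transpose_transpose]
  have h1 := ha.one_zero hw hx
  refine dual_eq_zero hd hn (hs.alt e x hx) (hnd e x hx) (hg.deg e x hx) ?_
  ext l
  have h2 := congrFun h1 {l}
  rwa [oneF_single] at h2

theorem Sop_smul (a : ℂ) (s : Matrix (Fin d) (Fin d) ℂ) : Sop (a • s) = a • Sop s := by
  have h : ∀ i, epsV ((a • s) i) = a • epsV (s i) := fun i => epsV_smul a (s i)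
  simp only [Sop, h, Matrix.mul_smul, ← Finset.smul_sum]
  rw [smul_comm]

/-- forms of degree two -/
theorem IsHolF.two_mult (hs : IsSymplectic d X w s) (hg : IsHolF 2 g) :
    ∃ a : ℂ, ∀ e x, At e x → g e (e x) = a • sPow (s e (e x)) 1 := by
  have h1 : IsHolTwoForm (fun (e : Chart d X) z => twoM (g e z)) := by
    refine ⟨fun e x hx i j => an_twoM (hg.holo e x hx) i j, fun e x hx => twoM_alt _,
      fun e e' x hx hx' => ?_⟩
    rw [hg.change e e' x hx hx', twoM_lam, Matrix.transpose_transpose]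
  obtain ⟨a, ha⟩ := hs.unique _ h1
  refine ⟨a, fun e x hx => ?_⟩
  rw [← Sop_twoM (hg.deg e x hx), ha e x hx, sPow_succ, sPow_zero]
  rw [Sop_smul, Matrix.smul_mulVec]

end Vale.Agent.P301.H85
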