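import Vale.Agent.P301.H85.SC.Symp

/-!
# P301, package SC1: the numbers `h⁰(Ω^p)` of an irreducible holomorphic symplectic fourfold
-/

open scoped Manifold ContDiff ComplexOrder Topology Matrix
open Set Filter Metric
open Vale.Agent.P272.K Vale.Agent.P272.K.C2 Vale.Agent.P299.IX Vale.Agent.P299.IX.Fock
open Vale.Agent.P301.H599 (IsHolTwoForm IsSymplectic)

set_option linter.unusedSectionVars false

noncomputable section

namespace Vale.Agent.P301.H85

section

variable {d : ℕ} {X : Type*} [TopologicalSpace X] [ChartedSpace (Cm d) X] {g g' : Frm d X} {p : ℕ}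

theorem IsHolF.congr (hg : IsHolF p g)
    (h : ∀ e x, At e x → ∀ᶠ z in 𝓝 (e x), g' e z = g e z) : IsHolF p g' where
  holo e x hx I := by
    refine (hg.holo e x hx I).congr ?_
    filter_upwards [h e x hx] with z hz
    rw [hz]
  change e e' x hx hx' := by
    rw [(h e x hx).self_of_nhds, (h e' x hx').self_of_nhds, hg.change e e' x hx hx']
  deg e x hx I hI := by
    rw [(h e x hx).self_of_nhds, hg.deg e x hx I hI]

theorem isHolF_zero (p : ℕ) : IsHolF p (0 : Frm d X) where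
  holo _ _ _ _ := analyticAt_const
  change e e' x _ _ := by
    show (0 : FI d → ℂ) = lam _ *ᵥ 0
    rw [Matrix.mulVec_zero]
  deg _ _ _ _ _ := rfl

theorem IsHolF.add (hg : IsHolF p g) (hg' : IsHolF p g') : IsHolF p (g + g') where
  holo e x hx I := (hg.holo e x hx I).add (hg'.holo e x hx I)
  change e e' x hx hx' := by
    show g e (e x) + g' e (e x) = lam _ *ᵥ (g e' (e' x) + g' e' (e' x))
    rw [Matrix.mulVec_add, ← hg.change e e' x hx hx', ← hg'.change e e' x hx hx']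
  deg e x hx I hI := by
    show g e (e x) I + g' e (e x) I = 0
    rw [hg.deg e x hx I hI, hg'.deg e x hx I hI, add_zero]

theorem IsHolF.smul (c : ℂ) (hg : IsHolF p g) : IsHolF p (c • g) where
  holo e x hx I := analyticAt_const.mul (hg.holo e x hx I)
  change e e' x hx hx' := by
    show c • g e (e x) = lam _ *ᵥ (c • g e' (e' x))
    rw [Matrix.mulVec_smul, ← hg.change e e' x hx hx']
  deg e x hx I hI := by
    show c * g e (e x) I = 0
    rw [hg.deg e x hx I hI, mul_zero]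

variable (d X) in
/-- the space of holomorphic `p`-forms (with value `0` outside of the charts) -/
def HolF (p : ℕ) : Submodule ℂ (Frm d X) where
  carrier := {g | IsHolF p g ∧ ∀ e z, ¬(e ∈ atlas (Cm d) X ∧ z ∈ e.target) → g e z = 0}
  zero_mem' := ⟨isHolF_zero p, fun _ _ _ => rfl⟩
  add_mem' := fun {a b} ha hb => ⟨ha.1.add hb.1, fun e z h => by
    show a e z + b e z = 0
    rw [ha.2 e z h, hb.2 e z h, add_zero]⟩
  smul_mem' := fun c a ha => ⟨ha.1.smul c, fun e z h => by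
    show c • a e z = 0
    rw [ha.2 e z h, smul_zero]⟩

open Classical in
/-- value `0` outside of the charts -/
def cutF (g : Frm d X) : Frm d X := fun e z =>
  if e ∈ atlas (Cm d) X ∧ z ∈ e.target then g e z else 0

theorem cutF_at (g : Frm d X) {e : Chart d X} {x : X} (hx : At e x) :
    cutF g e (e x) = g e (e x) := if_pos ⟨hx.1, e.map_source hx.2⟩

theorem cutF_mem (hg : IsHolF p g) : cutF g ∈ HolF d X p := by
  refine ⟨hg.congr fun e x hx => ?_, fun e z h => if_neg h⟩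
  filter_upwards [e.open_target.mem_nhds (e.map_source hx.2)] with z hz
  exact if_pos ⟨hx.1, hz⟩

theorem HolF_ext (hg : g ∈ HolF d X p) (hg' : g' ∈ HolF d X p)
    (h : ∀ e x, At e x → g e (e x) = g' e (e x)) : g = g' := by
  funext e z
  by_cases hz : e ∈ atlas (Cm d) X ∧ z ∈ e.target
  · have := h e (e.symm z) ⟨hz.1, e.map_target hz.2⟩
    rwa [e.right_inv hz.2] at this
  · rw [hg.2 e z hz, hg'.2 e z hz]

theorem HolF_eq_bot (h : ∀ g : Frm d X, IsHolF p g → ∀ e x, At e x → g e (e x) = 0) :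
    HolF d X p = ⊥ := by
  rw [eq_bot_iff]
  intro g hg
  rw [Submodule.mem_bot]
  exact HolF_ext hg (Submodule.zero_mem _) fun e x hx => h g hg.1 e x hx

theorem HolF_of_gt (hp : d < p) : HolF d X p = ⊥ :=
  HolF_eq_bot fun g hg e x hx => by
    ext I
    refine hg.deg e x hx I (ne_of_lt ((Finset.card_le_univ I).trans_lt ?_))
    rwa [Fintype.card_fin]

theorem finrank_HolF_eq_one {g₀ : Frm d X} (h₀ : IsHolF p g₀)
    (hne : ∃ e x, At e x ∧ g₀ e (e x) ≠ 0)
    (h : ∀ g : Frm d X, IsHolF p g → ∃ a : ℂ, ∀ e x, At e x → g e (e x) = a • g₀ e (e x)) :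
    Module.finrank ℂ (HolF d X p) = 1 := by
  refine finrank_eq_one (⟨cutF g₀, cutF_mem h₀⟩ : HolF d X p) ?_ ?_
  · intro h1
    obtain ⟨e, x, hx, hne⟩ := hne
    have h2 : cutF g₀ = 0 := congrArg Subtype.val h1
    apply hne
    rw [← cutF_at g₀ hx, h2]
    rfl
  · rintro ⟨g, hg⟩
    obtain ⟨a, ha⟩ := h g hg.1
    refine ⟨a, Subtype.ext (HolF_ext (Submodule.smul_mem _ a (cutF_mem h₀)) hg ?_)⟩
    intro e x hx
    show a • cutF g₀ e (e x) = g e (e x)
    rw [cutF_at g₀ hx, ha e x hx]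

end

variable {X : Type} [TopologicalSpace X] [ChartedSpace (Cm 4) X] [T2Space X] [CompactSpace X]
  [SimplyConnectedSpace X] [IsManifold 𝓘(ℂ, Cm 4) ω X]
  {w s : Chart 4 X → Cm 4 → Matrix (Fin 4) (Fin 4) ℂ}

/-- **no odd holomorphic forms** -/
theorem holF_odd (hs : IsSymplectic 4 X w s) : HolF 4 X 1 = ⊥ ∧ HolF 4 X 3 = ⊥ :=
  ⟨HolF_eq_bot fun _ hg _ _ hx => hg.one_zero hs.kahler hx,
    HolF_eq_bot fun _ hg _ _ hx =>
      IsHolF.codim_one_zero (n := 2) hs.kahler (by norm_num) (by norm_num) hs.form hs.nondeg hg hx⟩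

/-- **the numbers `h⁰(Ω^p)`** of a simply connected symplectic fourfold with `H⁰(Ω²) = ℂ s` -/
theorem finrank_holF (hs : IsSymplectic 4 X w s) :
    Module.finrank ℂ (HolF 4 X 0) = 1 ∧ Module.finrank ℂ (HolF 4 X 1) = 0 ∧
    Module.finrank ℂ (HolF 4 X 2) = 1 ∧ Module.finrank ℂ (HolF 4 X 3) = 0 ∧
    Module.finrank ℂ (HolF 4 X 4) = 1 := by
  obtain ⟨x₀⟩ : Nonempty X := inferInstance
  have hx₀ : At (chartAt (Cm 4) x₀ : Chart 4 X) x₀ := ⟨chart_mem_atlas _ _, mem_chart_source _ _⟩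
  have hne : ∀ k ≤ 2, ∃ e x, At e x ∧ sPow (s e (e x)) k ≠ 0 := fun k hk =>
    ⟨_, x₀, hx₀, sPow_ne_zero (n := 2) (by norm_num) (hs.form.alt _ _ hx₀) (hs.nondeg _ _ hx₀) hk⟩
  have : PathConnectedSpace X := inferInstance
  refine ⟨?_, ?_, ?_, ?_, ?_⟩
  · refine finrank_HolF_eq_one (isHolF_sPow hs.form 0) (hne 0 (by norm_num)) fun g hg => ?_
    obtain ⟨a, ha⟩ := hg.zero_const
    exact ⟨a, fun e x hx => by rw [ha e x hx, sPow_zero]⟩
  · rw [(holF_odd hs).1, finrank_bot]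
  · exact finrank_HolF_eq_one (isHolF_sPow hs.form 1) (hne 1 (by norm_num)) fun g hg =>
      hg.two_mult hs
  · rw [(holF_odd hs).2, finrank_bot]
  · exact finrank_HolF_eq_one (isHolF_sPow hs.form 2) (hne 2 (by norm_num)) fun g hg =>
      hg.top_const (by norm_num) hs.form hs.nondeg

/-- **`χ(𝒪) = 3`** in the form `Σ (-1)^p h⁰(Ω^p)` -/
theorem chi_eq (hs : IsSymplectic 4 X w s) :
    ∑ p ∈ Finset.range (4 + 1), (-1 : ℤ) ^ p * Module.finrank ℂ (HolF 4 X p) = 3 := by
  obtain ⟨h0, h1, h2, h3, h4⟩ := finrank_holF hs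
  simp [Finset.sum_range_succ, h0, h1, h2, h3, h4]

end Vale.Agent.P301.H85
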