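import Vale.Agent.P299.H954.IX.Glob
import Vale.Agent.P299.H227.Dev

/-!
# P301, package SC1: holomorphic forms on a compact Kähler manifold are closed
-/

open scoped Manifold ContDiff ComplexOrder Topology Matrix
open Set Filter Metric
open Vale.Agent.P272.K Vale.Agent.P272.K.C2 Vale.Agent.P299.IX Vale.Agent.P299.IX.Fock

noncomputable section

namespace Vale.Agent.P301.H85

variable {d : ℕ} {X : Type*} [TopologicalSpace X] [ChartedSpace (Cm d) X]

/-- `g` is a holomorphic `p`-form on `X`, `Σ_I g_I dz_I` in the charts. -/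
structure IsHolF (p : ℕ) (g : Frm d X) : Prop where
  holo : ∀ e x, At e x → ∀ I, AnalyticAt ℂ (fun z => g e z I) (e x)
  change : ∀ e e' x, At e x → At e' x → g e (e x) = lam (jacM e e' x)ᵀ *ᵥ g e' (e' x)
  deg : ∀ e x, At e x → ∀ I, I.card ≠ p → g e (e x) I = 0

variable {p : ℕ} {g : Frm d X}

theorem analytic_smooth {f : Cm d → ℂ} {z : Cm d} (h : AnalyticAt ℂ f z) {m : WithTop ℕ∞} :
    ContDiffAt ℝ m f z := (h.contDiffAt (n := m)).restrict_scalars ℝ

theorem IsHolF.isSec (hg : IsHolF p g) : IsSec 0 g where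
  smooth e x hx i := analytic_smooth (hg.holo e x hx i)
  change e e' x hx hx' := by
    rw [pow_zero, one_smul]
    exact hg.change e e' x hx hx'

theorem IsHolF.DVb_zero (hg : IsHolF p g) {e : Chart d X} {x : X} (hx : At e x) (b : Fin d) :
    DVb b (g e) (e x) = 0 := by
  ext I
  exact INT.dzb_of_holo (hg.holo e x hx I).differentiableAt b

theorem eventually_at {e : Chart d X} {x : X} (hx : At e x) :
    ∀ᶠ z in 𝓝 (e x), At e (e.symm z) ∧ e (e.symm z) = z := by
  filter_upwards [e.open_target.mem_nhds (e.map_source hx.2)] with z hz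
  exact ⟨⟨hx.1, e.map_target hz⟩, e.right_inv hz⟩

theorem IsHolF.DVb_zero_near (hg : IsHolF p g) {e : Chart d X} {x : X} (hx : At e x)
    (b : Fin d) : DVb b (g e) =ᶠ[𝓝 (e x)] fun _ => 0 := by
  filter_upwards [eventually_at hx] with z hz
  have := hg.DVb_zero hz.1 b
  rwa [hz.2] at this

theorem Dp_zero_eq {w : Cm d → Matrix (Fin d) (Fin d) ℂ} {a : Cm d → FI d → ℂ} :
    Dp 0 w a = fun z => ∑ l, eps l *ᵥ DV l a z := by
  funext z
  simp [Dp]

variable [T2Space X] [CompactSpace X] [IsManifold 𝓘(ℂ, Cm d) ω X]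
  {w : Chart d X → Cm d → Matrix (Fin d) (Fin d) ℂ}

omit [T2Space X] [CompactSpace X] [IsManifold 𝓘(ℂ, Cm d) ω X] in
theorem IsHolF.de_dp (hg : IsHolF p g) {e : Chart d X} {x : X} (hx : At e x) :
    DeX w (DpX 0 w g) e (e x) = 0 := by
  show De (w e) (Dp 0 (w e) (g e)) (e x) = 0
  have h2 : VC 2 (g e) (e x) := (hg.isSec.smooth e x hx).mono (by norm_cast)
  have h1 : ∀ l, VC 1 (DV l (g e)) (e x) := fun l => h2.DV (by norm_num)
  rw [De, Dp_zero_eq]
  rw [neg_eq_zero]
  refine Finset.sum_eq_zero fun b _ => ?_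
  rw [DVb_sum _ fun l _ => VC_constMul _ (h1 l)]
  rw [Finset.sum_eq_zero, Matrix.mulVec_zero]
  intro l _
  rw [DVb_constMul _ (h1 l), DV_DVb_comm h2, DV_congr (hg.DVb_zero_near hx b), G.DV_zero,
    Matrix.mulVec_zero]

/-- **holomorphic forms on a compact Kähler manifold are closed** -/
theorem IsHolF.dp_zero (hw : IsKahler w) (hg : IsHolF p g) {e : Chart d X} {x : X}
    (hx : At e x) : ∑ l, eps l *ᵥ DV l (g e) (e x) = 0 := by
  have hs := hg.isSec.dp (w := w) hw
  have h1 : ipX 0 w (DpX 0 w g) (DpX 0 w g) = 0 := by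
    rw [ipX_dp hw hg.isSec hs, ← ipX_conj hw]
    rw [ipX_eq, ← map_zero (starRingEnd ℂ), ← G.ipL_zero_left (L := hlbK 0 w) (w := w) g]
    congr 1
    exact G.ipL_congr (fun e x hx => hg.de_dp hx) fun _ _ _ => rfl
  have hs' := isSec_iff (w := w).1 hs
  rw [ipX_eq] at h1
  have hL := isHLB_K 0 hw
  have h2 := G.dens_eq_zero (G.dens_hpL hw hL hs' hs')
    (fun e x hx => G.hp_self_nonneg (hL.lat e x hx) (G.kat w hw hx) _)
    (by
      show (G.ipL (hlbK 0 w) w _ _).re ≤ 0
      rw [h1]; simp) hx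
  by_contra h3
  have h4 : DpX 0 w g e (e x) ≠ 0 := by
    show Dp 0 (w e) (g e) (e x) ≠ 0
    rw [Dp_zero_eq]
    exact h3
  have h5 := G.hp_self_pos (hL.lat e x hx) (G.kat w hw hx) h4
  exact h5.ne' h2

end Vale.Agent.P301.H85
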