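import Vale.Agent.P299.H227.Dev
import Mathlib.Geometry.Manifold.Complex

/-!
# P301, package SC1: closed holomorphic 1-forms on a simply connected compact complex manifold vanish

`exists_primC` is helper227's `exists_prim` (P299) for arbitrary matrices of closed holomorphic
`1`-forms.
-/

open scoped Manifold ContDiff ComplexOrder Topology
open Set Filter Metric
open Vale.Agent.P272.K Vale.Agent.P278.H837 Vale.Agent.P299.D Vale.Agent.P299.H227

set_option linter.unusedSectionVars false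

noncomputable section

namespace Vale.Agent.P301.H85

variable {d : ℕ} {Y : Type*} [TopologicalSpace Y] [ChartedSpace (Cm d) Y]

/-- the rows of `Θ` are closed holomorphic `1`-forms -/
structure Cls (Θ : Chart d Y → Cm d → Matrix (Fin d) (Fin d) ℂ) : Prop where
  diff : ∀ e y, At e y → ∀ i k, DifferentiableAt ℂ (fun z => Θ e z i k) (e y)
  closed : ∀ e y, At e y → ∀ i k l,
    dz l (fun z => Θ e z i k) (e y) = dz k (fun z => Θ e z i l) (e y)
  change : ∀ e e' y, At e y → At e' y → Θ e (e y) = Θ e' (e' y) * jacM e e' y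

/-- `f` is a primitive of `Θ` at `y` -/
def PrimC (Θ : Chart d Y → Cm d → Matrix (Fin d) (Fin d) ℂ) (f : Y → Cm d) (y : Y) : Prop :=
  ∀ e : Chart d Y, At e y → DifferentiableAt ℂ (fun z => f (e.symm z)) (e y) ∧
    jmat (fun z => f (e.symm z)) (e y) = Θ e (e y)

variable [IsManifold 𝓘(ℂ, Cm d) ω Y] {Θ : Chart d Y → Cm d → Matrix (Fin d) (Fin d) ℂ}

theorem primC_of_chart (hΘ : Cls Θ) {f : Y → Cm d}
    {e₀ : Chart d Y} {y : Y} (h₀ : At e₀ y)
    (h1 : DifferentiableAt ℂ (fun z => f (e₀.symm z)) (e₀ y))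
    (h2 : jmat (fun z => f (e₀.symm z)) (e₀ y) = Θ e₀ (e₀ y)) : PrimC Θ f y := by
  intro e h
  have e1 : (fun z => f (e.symm z)) =ᶠ[𝓝 (e y)] fun z => f (e₀.symm (e₀ (e.symm z))) := by
    filter_upwards [h.nhds_at h₀] with z hz
    rw [hz.2.2.left_inv]
  have e2 : e₀ (e.symm (e y)) = e₀ y := by rw [h.left_inv]
  have hσ : DifferentiableAt ℂ (fun z => f (e₀.symm z)) (e₀ (e.symm (e y))) := by rw [e2]; exact h1
  have hτ := transition_differentiableAt h h₀
  refine ⟨(DifferentiableAt.congr_of_eventuallyEq ?_ e1), ?_⟩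
  · exact DifferentiableAt.comp (e y) (g := fun z => f (e₀.symm z))
      (f := fun z => e₀ (e.symm z)) hσ hτ
  · rw [jmat_congr e1, jmat_comp (τ := fun z => e₀ (e.symm z)) (σ := fun z => f (e₀.symm z)) hσ hτ,
      e2, h2, hΘ.change e e₀ y h h₀]
    rfl

/-- **global primitives** -/
theorem exists_primC [SimplyConnectedSpace Y] (hΘ : Cls Θ) : ∃ F : Y → Cm d, ∀ y, PrimC Θ F y := by
  have : LocallyPathConnectedSpace Y := ChartedSpace.locallyPathConnectedSpace (Cm d) Y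
  -- local primitives
  have hloc : ∀ y₀ : Y, ∃ (ε : ℝ) (F : Cm d → Cm d), 0 < ε ∧
      ball (chartAt (Cm d) y₀ y₀) ε ⊆ (chartAt (Cm d) y₀).target ∧
      ∀ z ∈ ball (chartAt (Cm d) y₀ y₀) ε, DifferentiableAt ℂ F z ∧
        jmat F z = Θ (chartAt (Cm d) y₀) z := by
    intro y₀
    obtain ⟨ε, hε, hεt⟩ := Metric.isOpen_iff.1 (chartAt (Cm d) y₀).open_target
      (chartAt (Cm d) y₀ y₀) ((chartAt (Cm d) y₀).map_source (mem_chart_source _ _))
    have hat : ∀ z ∈ ball (chartAt (Cm d) y₀ y₀) ε, At (chartAt (Cm d) y₀ : Chart d Y)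
        ((chartAt (Cm d) y₀).symm z) := fun z hz => At.of_target (chart_mem_atlas _ _) (hεt hz)
    have hright : ∀ z ∈ ball (chartAt (Cm d) y₀ y₀) ε,
        chartAt (Cm d) y₀ ((chartAt (Cm d) y₀).symm z) = z := fun z hz =>
      (chartAt (Cm d) y₀).right_inv (hεt hz)
    obtain ⟨F, hF⟩ := exists_local_prim (Θ := Θ (chartAt (Cm d) y₀)) isOpen_ball
      (convex_ball _ _) (fun z hz i k => by
        have := hΘ.diff _ _ (hat z hz) i k
        rwa [hright z hz] at this) (fun z hz i k l => by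
        have := hΘ.closed _ _ (hat z hz) i k l
        rwa [hright z hz] at this)
    exact ⟨ε, F, hε, hεt, hF⟩
  choose ε F₀ hε hεt hF₀ using hloc
  let e₀ : Y → Chart d Y := fun y => chartAt (Cm d) y
  let U : Y → Set Y := fun y => (e₀ y).source ∩ e₀ y ⁻¹' ball (e₀ y y) (ε y)
  have hU : ∀ y, IsOpen (U y) := fun y => (e₀ y).isOpen_inter_preimage isOpen_ball
  have hyU : ∀ y, y ∈ U y := fun y => ⟨mem_chart_source _ _, mem_ball_self (hε y)⟩
  have hatU : ∀ y, ∀ x ∈ U y, At (e₀ y) x := fun y x hx => ⟨chart_mem_atlas _ _, hx.1⟩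
  have hprim : ∀ (y : Y) (c : Cm d), ∀ x ∈ U y, PrimC Θ (fun x => F₀ y (e₀ y x) + c) x := by
    intro y c x hx
    have e1 : (fun z => F₀ y (e₀ y ((e₀ y).symm z)) + c) =ᶠ[𝓝 (e₀ y x)] fun z => F₀ y z + c := by
      filter_upwards [(hatU y x hx).nhds_target] with z hz
      rw [(e₀ y).right_inv hz]
    have h1 : DifferentiableAt ℂ (fun z => F₀ y z + c) (e₀ y x) :=
      ((hF₀ y _ hx.2).1).add_const c
    refine primC_of_chart hΘ (hatU y x hx) (h1.congr_of_eventuallyEq e1) ?_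
    rw [jmat_congr e1, ← (hF₀ y _ hx.2).2]
    ext p i
    have h2 : HasFDerivAt (fun z => F₀ y z + c) (fderiv ℂ (F₀ y) (e₀ y x)) (e₀ y x) :=
      ((hF₀ y _ hx.2).1).hasFDerivAt.add_const c
    rw [hasFDerivAt_of_matrix h2, jmat_apply (hF₀ y _ hx.2).1]
  let V : ∀ y : Y, Set (Germ (𝓝 y) (Cm d)) := fun y =>
    {γ | ∃ f : Y → Cm d, (f : Germ (𝓝 y) (Cm d)) = γ ∧ ∀ᶠ y' in 𝓝 y, PrimC Θ f y'}
  have hVself : ∀ (y : Y) (f : Y → Cm d), ((f : Y → Cm d) : Germ (𝓝 y) (Cm d)) ∈ V y →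
      PrimC Θ f y := by
    rintro y f ⟨f', hf', h'⟩
    have h1 : f' =ᶠ[𝓝 y] f := Germ.coe_eq.1 hf'
    intro e he
    have h2 := h'.self_of_nhds e he
    have e1 : (fun z => f (e.symm z)) =ᶠ[𝓝 (e y)] fun z => f' (e.symm z) := by
      have h3 : Tendsto e.symm (𝓝 (e y)) (𝓝 y) := by
        have := e.continuousAt_symm he.mem_target
        rwa [ContinuousAt, he.left_inv] at this
      exact h3.eventually h1.symm
    exact ⟨h2.1.congr_of_eventuallyEq e1, by rw [jmat_congr e1, h2.2]⟩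
  have hmain : ∀ y₀ : Y, ∃ (U : Set Y) (S : Set (Y → Cm d)), IsOpen U ∧ y₀ ∈ U ∧
      (∀ f ∈ S, ∀ y ∈ U, ((f : Y → Cm d) : Germ (𝓝 y) (Cm d)) ∈ V y) ∧
      (∀ y ∈ U, ∀ γ ∈ V y, ∃ f ∈ S, ((f : Y → Cm d) : Germ (𝓝 y) (Cm d)) = γ) ∧
      (∀ f ∈ S, ∀ f' ∈ S, ∀ y ∈ U, f =ᶠ[𝓝 y] f' → ∀ x ∈ U, f =ᶠ[𝓝 x] f') := by
    intro y₀
    refine ⟨U y₀, {f | ∃ c, f = fun x => F₀ y₀ (e₀ y₀ x) + c}, hU y₀, hyU y₀, ?_, ?_, ?_⟩
    · rintro f ⟨c, rfl⟩ y hy
      exact ⟨_, rfl, by filter_upwards [(hU y₀).mem_nhds hy] with x hx using hprim y₀ c x hx⟩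
    · rintro y hy γ ⟨f, rfl, hf⟩
      have hat := hatU y₀ y hy
      have h3 : Tendsto (e₀ y₀).symm (𝓝 (e₀ y₀ y)) (𝓝 y) := by
        have := (e₀ y₀).continuousAt_symm hat.mem_target
        rwa [ContinuousAt, hat.left_inv] at this
      have h4 : ∀ᶠ z in 𝓝 (e₀ y₀ y), PrimC Θ f ((e₀ y₀).symm z) ∧
          z ∈ ball (e₀ y₀ y₀) (ε y₀) := (h3.eventually hf).and (isOpen_ball.mem_nhds hy.2)
      obtain ⟨δ, hδ, hδ'⟩ := Metric.eventually_nhds_iff_ball.1 h4
      have hr : ∀ z ∈ ball (e₀ y₀ y) δ, e₀ y₀ ((e₀ y₀).symm z) = z := fun z hz =>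
        (e₀ y₀).right_inv (hεt y₀ (hδ' z hz).2)
      have hatz : ∀ z ∈ ball (e₀ y₀ y) δ, At (e₀ y₀) ((e₀ y₀).symm z) := fun z hz =>
        At.of_target (chart_mem_atlas _ _) (hεt y₀ (hδ' z hz).2)
      obtain ⟨c, hc⟩ := exists_const_of_jmat (f := fun z => f ((e₀ y₀).symm z)) (g := F₀ y₀)
        (U := ball (e₀ y₀ y) δ) isOpen_ball (convex_ball _ _).isPreconnected
        (fun z hz => by
          have := ((hδ' z hz).1 _ (hatz z hz)).1
          rwa [hr z hz] at this) (fun z hz => (hF₀ y₀ z (hδ' z hz).2).1) (fun z hz => by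
          have := ((hδ' z hz).1 _ (hatz z hz)).2
          rw [hr z hz] at this
          rw [this, (hF₀ y₀ z (hδ' z hz).2).2])
      refine ⟨_, ⟨c, rfl⟩, Germ.coe_eq.2 ?_⟩
      have h5 : ∀ᶠ x in 𝓝 y, e₀ y₀ x ∈ ball (e₀ y₀ y) δ :=
        ((e₀ y₀).continuousAt hat.2).eventually (ball_mem_nhds _ hδ)
      filter_upwards [h5, (e₀ y₀).open_source.mem_nhds hat.2] with x hx hxs
      have h6 := hc _ hx
      rw [(e₀ y₀).left_inv hxs] at h6
      exact h6.symm
    · rintro f ⟨c, rfl⟩ f' ⟨c', rfl⟩ y hy he x hx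
      have h1 := he.eq_of_nhds
      rw [add_left_cancel h1]
  obtain ⟨y₀⟩ : Nonempty Y := inferInstance
  obtain ⟨F, hF, -⟩ := exists_global_of_germs (V := V) hmain y₀ (fun x => F₀ y₀ (e₀ y₀ x) + 0)
    ⟨_, rfl, by filter_upwards [(hU y₀).mem_nhds (hyU y₀)] with x hx using hprim y₀ 0 x hx⟩
  exact ⟨F, fun y => hVself y F (hF y)⟩

/-- a function holomorphic in the charts is `MDifferentiable` -/
theorem mdiff_of_charts {E : Type*} [NormedAddCommGroup E] [NormedSpace ℂ E] {F : Y → E}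
    (hF : ∀ (e : Chart d Y) y, At e y → DifferentiableAt ℂ (fun z => F (e.symm z)) (e y)) :
    MDifferentiable 𝓘(ℂ, Cm d) 𝓘(ℂ, E) F := by
  intro y
  have ha : At (chartAt (Cm d) y : Chart d Y) y := ⟨chart_mem_atlas _ _, mem_chart_source _ _⟩
  have h2 : MDifferentiableAt 𝓘(ℂ, Cm d) 𝓘(ℂ, E) (fun z => F ((chartAt (Cm d) y).symm z))
      (chartAt (Cm d) y y) := mdifferentiableAt_iff_differentiableAt.2 (hF _ y ha)
  have h3 : MDifferentiableAt 𝓘(ℂ, Cm d) 𝓘(ℂ, E)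
      (fun x => F ((chartAt (Cm d) y).symm (chartAt (Cm d) y x))) y :=
    MDifferentiableAt.comp y (g := fun z => F ((chartAt (Cm d) y).symm z)) h2
      ((chart_contMDiffAt ha).mdifferentiableAt (by simp))
  refine h3.congr_of_eventuallyEq ?_
  filter_upwards [(chartAt (Cm d) y).open_source.mem_nhds ha.2] with x hx
  rw [(chartAt (Cm d) y).left_inv hx]

/-- holomorphic functions on compact connected manifolds are constant -/
theorem const_of_charts [CompactSpace Y] [PreconnectedSpace Y] {E : Type*} [NormedAddCommGroup E]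
    [NormedSpace ℂ E] [StrictConvexSpace ℝ E] {F : Y → E}
    (hF : ∀ (e : Chart d Y) y, At e y → DifferentiableAt ℂ (fun z => F (e.symm z)) (e y)) :
    ∀ a b, F a = F b := fun a b =>
  (mdiff_of_charts hF).apply_eq_of_compactSpace a b

/-- **closed holomorphic `1`-forms vanish** -/
theorem Cls.zero [SimplyConnectedSpace Y] [CompactSpace Y] (hΘ : Cls Θ) {e : Chart d Y} {y : Y}
    (h : At e y) : Θ e (e y) = 0 := by
  obtain ⟨F, hF⟩ := exists_primC hΘ
  have : PathConnectedSpace Y := inferInstance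
  have hc : ∀ p : Fin d, ∀ a b, F a p = F b p := fun p =>
    const_of_charts (F := fun y => F y p) fun e y h =>
      differentiableAt_pi.1 (hF y e h).1 p
  rw [← (hF y e h).2]
  have h1 : (fun z => F (e.symm z)) = fun _ => F y := by
    funext z p
    exact hc p _ _
  rw [h1]
  ext p i
  rw [jmat_apply (differentiableAt_const _)]
  simp

end Vale.Agent.P301.H85
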