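import Vale.Agent.P301.H85.SC.Closed
import Vale.Agent.P301.H85.SC.Prim

/-!
# P301, package SC1: no holomorphic 1-forms
-/

open scoped Manifold ContDiff ComplexOrder Topology Matrix
open Set Filter Metric
open Vale.Agent.P272.K Vale.Agent.P272.K.C2 Vale.Agent.P299.IX Vale.Agent.P299.IX.Fock

set_option linter.unusedSectionVars false

noncomputable section

namespace Vale.Agent.P301.H85

variable {d : ℕ}

theorem lam_single (J : Matrix (Fin d) (Fin d) ℂ) (i p : Fin d) : lam J {i} {p} = J i p := by
  rw [← mulVec_ev (lam J) {p} {i}]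
  have h1 : ({p} : Finset (Fin d)) = insert p ∅ := rfl
  rw [h1, lam_ev_insert J (by simp), lam_ev_empty]
  simp only [epsV, Matrix.sum_mulVec, Matrix.smul_mulVec, Finset.sum_apply, Pi.smul_apply,
    smul_eq_mul, eps_mulVec]
  rw [Finset.sum_eq_single i]
  · simp [sg_min, ev]
  · intro b _ hb
    simp [hb]
  · simp

variable {X : Type*} [TopologicalSpace X] [ChartedSpace (Cm d) X] {g : Frm d X}

/-- components of a `1`-form -/
theorem lam_mulVec_one {J : Matrix (Fin d) (Fin d) ℂ} {u : FI d → ℂ}
    (hu : ∀ I : FI d, I.card ≠ 1 → u I = 0) (i : Fin d) :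
    (lam J *ᵥ u) {i} = ∑ p, J i p * u {p} := by
  rw [Matrix.mulVec, dotProduct]
  have h1 : ∑ I : FI d, lam J {i} I * u I =
      ∑ I ∈ (Finset.univ : Finset (Fin d)).map ⟨fun p => ({p} : FI d), Finset.singleton_injective⟩,
        lam J {i} I * u I := by
    symm
    refine Finset.sum_subset (Finset.subset_univ _) fun I _ hI => ?_
    rw [hu I, mul_zero]
    intro hc
    obtain ⟨p, rfl⟩ := Finset.card_eq_one.1 hc
    exact hI (Finset.mem_map.2 ⟨p, Finset.mem_univ _, rfl⟩)
  rw [h1, Finset.sum_map]
  refine Finset.sum_congr rfl fun p _ => ?_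
  simp only [Function.Embedding.coeFn_mk, lam_single]

variable [T2Space X] [CompactSpace X] [IsManifold 𝓘(ℂ, Cm d) ω X]
  {w : Chart d X → Cm d → Matrix (Fin d) (Fin d) ℂ}

/-- the components of a closed form -/
theorem IsHolF.closed_one (hw : IsKahler w) (hg : IsHolF 1 g) {e : Chart d X} {x : X}
    (hx : At e x) (k l : Fin d) :
    dz l (fun z => g e z {k}) (e x) = dz k (fun z => g e z {l}) (e x) := by
  rcases eq_or_ne k l with rfl | hkl
  · rfl
  have h1 := congrFun (hg.dp_zero hw hx) {k, l}
  simp only [Finset.sum_apply, eps_mulVec, Pi.zero_apply] at h1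
  have h2 : ∑ i : Fin d, (if i ∈ ({k, l} : FI d) then
      sg i {k, l} * DV i (g e) (e x) (({k, l} : FI d).erase i) else 0) =
      ∑ i ∈ ({k, l} : FI d), sg i {k, l} * DV i (g e) (e x) (({k, l} : FI d).erase i) := by
    rw [Finset.sum_ite_mem, Finset.univ_inter]
  rw [h2, Finset.sum_pair hkl] at h1
  have h3 : ({k, l} : FI d).erase k = {l} := by
    ext a
    simp only [Finset.mem_erase, Finset.mem_insert, Finset.mem_singleton]
    constructor
    · rintro ⟨ha, hb | hb⟩
      · exact absurd hb ha
      · exact hb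
    · rintro rfl
      exact ⟨hkl.symm, Or.inr rfl⟩
  have h4 : ({k, l} : FI d).erase l = {k} := by
    ext a
    simp only [Finset.mem_erase, Finset.mem_insert, Finset.mem_singleton]
    constructor
    · rintro ⟨ha, hb | hb⟩
      · exact hb
      · exact absurd hb ha
    · rintro rfl
      exact ⟨hkl, Or.inl rfl⟩
  have h5 : sg k ({k, l} : FI d) = -sg l ({k, l} : FI d) := by
    have a1 : sg k ({k, l} : FI d) = sg k ({l} : FI d) := by
      rw [sg_insert (by simpa using hkl), if_neg (lt_irrefl k)]
    have a2 : sg l ({k, l} : FI d) = sg l ({k} : FI d) := by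
      rw [Finset.pair_comm, sg_insert (by simpa using hkl.symm), if_neg (lt_irrefl l)]
    rw [a1, a2]
    have a3 : ∀ a b : Fin d, sg a ({b} : FI d) = if b < a then -1 else 1 := by
      intro a b
      have : ({b} : FI d) = insert b ∅ := rfl
      rw [this, sg_insert (by simp)]
      split_ifs <;> simp [sg]
    rw [a3, a3]
    rcases lt_or_gt_of_ne hkl with h | h
    · rw [if_neg (not_lt.2 h.le), if_pos h, neg_neg]
    · rw [if_pos h, if_neg (not_lt.2 h.le)]
  rw [h3, h4, h5] at h1
  have h6 : sg l ({k, l} : FI d) ≠ 0 := left_ne_zero_of_mul_eq_one (sg_mul_self l _)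
  have h7 : sg l ({k, l} : FI d) * (DV l (g e) (e x) {k} - DV k (g e) (e x) {l}) = 0 := by
    linear_combination h1
  exact sub_eq_zero.1 ((mul_eq_zero.1 h7).resolve_left h6)

/-- **a compact simply connected Kähler manifold has no holomorphic `1`-forms** -/
theorem IsHolF.one_zero [SimplyConnectedSpace X] (hw : IsKahler w) (hg : IsHolF 1 g)
    {e : Chart d X} {x : X} (hx : At e x) : g e (e x) = 0 := by
  have hΘ : Cls (fun (e : Chart d X) z => (Matrix.of fun _ k => g e z {k} :
      Matrix (Fin d) (Fin d) ℂ)) := by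
    refine ⟨fun e x hx i k => (hg.holo e x hx {k}).differentiableAt,
      fun e x hx i k l => hg.closed_one hw hx k l, fun e e' x hx hx' => ?_⟩
    ext i k
    rw [Matrix.of_apply, hg.change e e' x hx hx', lam_mulVec_one (hg.deg e' x hx'),
      Matrix.mul_apply]
    exact Finset.sum_congr rfl fun p _ => mul_comm _ _
  ext I
  by_cases hI : I.card = 1
  · obtain ⟨p, rfl⟩ := Finset.card_eq_one.1 hI
    exact congrFun (congrFun (hΘ.zero hx) p) p
  · exact hg.deg e x hx I hI

end Vale.Agent.P301.H85
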